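import Vale.Agent.P354CB.Ez

/-!
KA2: at a boundary point in the future of the slice, the isometry has a limit.
-/

open Set Filter Topology

namespace Vale.Agent.P354CB49

open Vale.Agent.P354n Vale.Agent.P354CB

variable {M N : Spc} {S U : Set M.pt} {S' : Set N.pt} {ψ : M.pt → N.pt} {φ : N.pt → M.pt}
  {q w x : M.pt} {z z' : N.pt}

/-- The image of a curve which ends in U. -/
theorem ll_map (Z : L0) (hM : St M) (hN : St N) (H : Hull M S U) (lm : ∀ x ∈ U, LM ψ x)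
    (hw : w ∉ Pa M S) (hx : x ∈ U) (k : LL M w x) : LL N (ψ w) (ψ x) := by
  obtain ⟨c, hc, rfl, rfl⟩ := k
  exact ⟨fun t => ψ (c t), Z.k1.curve hM hN (uniqueDiffOn_Icc one_pos) hc
    fun t ht => lm _ (Z.l1.in_dn hM H hc hw hx ht), rfl, rfl⟩

/-- The past of a boundary point lies in U, and its image in the past of every partner. -/
theorem step_a (Z : L0) (hM : St M) (gN : GH0 N S') (H : Hull M S U) (lm : ∀ x ∈ U, LM ψ x)
    (sd : ∀ x ∈ U, ψ x ∈ Pa N S' → x ∈ Pa M S) (hz : (q, z) ∈ closure (gr U ψ))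
    (k : LL M w q) (hw : w ∉ Pa M S) : w ∈ U ∧ Le N (ψ w) z := by
  have op : IsOpen {p : M.pt × N.pt | LL M w p.1} := (Z.l1.opF hM w).preimage continuous_fst
  have wU : w ∈ U := by
    obtain ⟨_, h1, x, hx, rfl⟩ := mem_closure_iff.1 hz _ op k
    exact H.dn x hx w h1 hw
  refine ⟨wU, ?_⟩
  have cl : IsClosed {p : M.pt × N.pt | ψ w ∉ Pa N S' ∧ Le N (ψ w) p.2} :=
    (Z.l2.g2 N S' gN).cl.preimage (f := fun p : M.pt × N.pt => (ψ w, p.2))
      (continuous_const.prodMk continuous_snd)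
  have m : (q, z) ∈ closure ({p | LL M w p.1} ∩ gr U ψ) := op.inter_closure ⟨k, hz⟩
  refine (closure_minimal ?_ cl m).2
  rintro _ ⟨h1, x, hx, rfl⟩
  exact ⟨fun m => hw (sd w wU m), Z.l1.le gN.st (ll_map Z hM gN.st H lm hw hx h1)⟩

/-- The graph of the inverse. -/
theorem swap_mem (P : Pair M N S S' U ψ φ) (hz : (q, z) ∈ closure (gr U ψ)) :
    (z, q) ∈ closure (gr (ψ '' U) φ) := by
  refine map_mem_closure (f := Prod.swap) continuous_swap hz ?_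
  rintro _ ⟨x, hx, rfl⟩
  exact ⟨ψ x, ⟨x, hx, rfl⟩, Prod.ext rfl (P.lm x hx).2.1⟩

/-- Partners lie in the future of the slice. -/
theorem step_b (Z : L0) (P : Pair M N S S' U ψ φ) (hz : (q, z) ∈ closure (gr U ψ))
    (hq : q ∈ Fu M S) : z ∈ Fu N S' := by
  have hM := P.gM.st
  obtain ⟨s, hs, k⟩ := hq
  obtain ⟨w, -, k1, k2⟩ := Z.l1.b.midF hM k univ univ_mem
  have wF : w ∈ Fu M S := ⟨s, hs, k1⟩
  obtain ⟨wU, l⟩ := step_a Z hM P.gN.toGH0 P.hU (fun x hx => (P.lm x hx).1)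
    (fun x hx => (P.side x hx).2.2.2) hz k2 (Z.l1.fu_pa hM (Z.l2.g1 M S P.gM.toGH0) wF)
  obtain ⟨s', hs', k'⟩ := (P.side w wU).2.1.1 wF
  exact ⟨s', hs', l.2 _ k'⟩

/-- Two partners are comparable. -/
theorem step_c (Z : L0) (P : Pair M N S S' U ψ φ) (hz : (q, z) ∈ closure (gr U ψ))
    (hz' : (q, z') ∈ closure (gr U ψ)) (hq : q ∈ Fu M S) : Le N z' z := by
  have hM := P.gM.st
  have hN := P.gN.st
  have G' := Z.l2.g1 N S' P.gN.toGH0
  have lm' : ∀ y ∈ ψ '' U, LM φ y := by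
    rintro _ ⟨x, hx, rfl⟩
    exact (P.lm x hx).2.2
  have sd' : ∀ y ∈ ψ '' U, φ y ∈ Pa M S → y ∈ Pa N S' := by
    rintro _ ⟨x, hx, rfl⟩ m
    rw [(P.lm x hx).2.1] at m
    exact (P.side x hx).2.2.1 m
  have cl : IsClosed {a : N.pt | a ∉ Pa N S' ∧ Le N a z} :=
    (Z.l2.g2 N S' P.gN.toGH0).cl.preimage (f := fun a : N.pt => (a, z))
      (continuous_id.prodMk continuous_const)
  have m : z' ∈ closure (Fu N S' ∩ {a | LL N a z'}) :=
    (Z.l1.opFu hN S').inter_closure ⟨step_b Z P hz' hq, Z.l1.b.nearP hN z'⟩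
  refine (closure_minimal ?_ cl m).2
  rintro a ⟨aF, k⟩
  have aP : a ∉ Pa N S' := Z.l1.fu_pa hN G' aF
  obtain ⟨b, -, k1, k2⟩ := Z.l1.b.midF hN k univ univ_mem
  obtain ⟨bU, l⟩ := step_a Z hN P.gM.toGH0 P.hU' lm' sd' (swap_mem P hz') k2
    (Z.l1.fu_pa hN G' (Z.l1.fu_up hN aF k1))
  have k3 : LL M (φ a) q := l.2 _ (ll_map Z hN hM P.hU' lm' aP bU k1)
  obtain ⟨x, hx, rfl⟩ := P.hU'.dn b bU a k1 aP
  rw [(P.lm x hx).2.1] at k3
  exact ⟨aP, (step_a Z hM P.gN.toGH0 P.hU (fun x hx => (P.lm x hx).1)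
    (fun x hx => (P.side x hx).2.2.2) hz k3 fun n => aP ((P.side x hx).2.2.1 n)).2⟩

/-- The partner is unique. -/
theorem uniq (Z : L0) (P : Pair M N S S' U ψ φ) (hz : (q, z) ∈ closure (gr U ψ))
    (hz' : (q, z') ∈ closure (gr U ψ)) (hq : q ∈ Fu M S) : z = z' :=
  (Z.l2.g2 N S' P.gN.toGH0).anti z z'
    (Z.l1.fu_pa P.gN.st (Z.l2.g1 N S' P.gN.toGH0) (step_b Z P hz hq))
    (step_c Z P hz' hz hq) (step_c Z P hz hz' hq)

theorem ka2 (Z : L0) : KA2 := by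
  intro M N S S' U ψ φ P q q' hz hq
  have hM := P.gM.st
  have := Z.l1.b.lc N
  refine tendsto_def.2 fun W hW => ?_
  obtain ⟨K, K1, K2, K3⟩ := local_compact_nhds hW
  have Kc : IsCompact (frontier K) := K3.of_isClosed_subset isClosed_frontier
    K3.isClosed.frontier_subset
  have sub : ({q} : Set M.pt) ×ˢ frontier K ⊆ (closure (gr U ψ))ᶜ := by
    rintro ⟨_, z⟩ ⟨rfl, k⟩ m
    rw [uniq Z P m hz hq] at k
    exact k.2 (mem_interior_iff_mem_nhds.2 K1)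
  obtain ⟨V, V', V1, -, V2, V3, V4⟩ := generalized_tube_lemma isCompact_singleton Kc
    isClosed_closure.isOpen_compl sub
  obtain ⟨w, ⟨-, wF⟩, hw⟩ := Z.l1.b.past hM q (V ∩ Fu M S)
    ((V1.inter (Z.l1.opFu hM S)).mem_nhds ⟨V2 rfl, hq⟩)
  have wP := Z.l1.fu_pa hM (Z.l2.g1 M S P.gM.toGH0) wF
  have key : ∀ᶠ x in 𝓝 q, x ∈ U → (ψ w ∈ interior K ↔ ψ x ∈ interior K) := by
    filter_upwards [hw] with x ⟨c, hc, c1, c2, c3⟩ hx
    subst c2 c3
    have cU := Z.l1.in_dn hM P.hU hc wP hx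
    have pc : IsPreconnected ((fun t => ψ (c t)) '' Icc (0 : ℝ) 1) :=
      isPreconnected_Icc.image _ fun t ht =>
        (P.lm _ (cU ht)).1.1.comp_continuousWithinAt (hc.1 t ht)
    have cv : (fun t => ψ (c t)) '' Icc (0 : ℝ) 1 ⊆ interior K ∪ Kᶜ := by
      rintro _ ⟨t, ht, rfl⟩
      by_contra n
      rw [mem_union, not_or, mem_compl_iff, not_not] at n
      exact V4 (a := (c t, ψ (c t))) ⟨(c1 ht).1, V3 ⟨subset_closure n.2, n.1⟩⟩
        (subset_closure ⟨c t, cU ht, rfl⟩)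
    have m0 : ψ (c 0) ∈ (fun t => ψ (c t)) '' Icc (0 : ℝ) 1 :=
      ⟨0, left_mem_Icc.2 zero_le_one, rfl⟩
    have m1 : ψ (c 1) ∈ (fun t => ψ (c t)) '' Icc (0 : ℝ) 1 :=
      ⟨1, right_mem_Icc.2 zero_le_one, rfl⟩
    have dj : Disjoint (interior K) Kᶜ := disjoint_compl_right.mono_left interior_subset
    exact ⟨fun k => pc.subset_left_of_subset_union isOpen_interior K3.isClosed.isOpen_compl dj cv
        ⟨_, m0, k⟩ m1,
      fun k => pc.subset_left_of_subset_union isOpen_interior K3.isClosed.isOpen_compl dj cv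
        ⟨_, m1, k⟩ m0⟩
  obtain ⟨_, ⟨a1, a2⟩, x, hx, rfl⟩ := mem_closure_iff_nhds.1 hz _
    (prod_mem_nhds key (interior_mem_nhds.2 K1))
  have wK : ψ w ∈ interior K := (a1 hx).2 a2
  filter_upwards [mem_nhdsWithin_of_mem_nhds key, self_mem_nhdsWithin] with y k hy
  exact K2 (interior_subset ((k hy).1 wK))

end Vale.Agent.P354CB49
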