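import Vale.Agent.P354CB.Defs2

/-!
KR: a removable singularity for solutions of a total differential equation.
-/

open scoped ContDiff
open Set Filter Topology Metric

namespace Vale.Agent.P354CB49

open Vale.Agent.P354I (X)
open Vale.Agent.P354CB

variable {E : Type} [NormedAddCommGroup E] [NormedSpace ℝ E]

theorem exists_orth (a b : X) : ∃ v : X, v ≠ 0 ∧ inner ℝ a v = 0 ∧ inner ℝ b v = 0 := by
  let f : X →ₗ[ℝ] ℝ × ℝ := (innerₛₗ ℝ a).prod (innerₛₗ ℝ b)
  have k : LinearMap.ker f ≠ ⊥ := LinearMap.ker_ne_bot_of_finrank_lt (by simp)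
  obtain ⟨v, v1, v2⟩ := Submodule.exists_mem_ne_zero_of_ne_bot k
  exact ⟨v, v2, congrArg Prod.fst v1, congrArg Prod.snd v1⟩

/-- The mean value inequality on a punctured ball. -/
theorem lip {y : X} {f : X → E} {f' : X → X →L[ℝ] E} {r C : ℝ}
    (h : ∀ x ∈ ball y r, x ≠ y → HasFDerivAt f (f' x) x ∧ ‖f' x‖ ≤ C) {x x' : X}
    (h1 : x ∈ ball y r) (h2 : x ≠ y) (h3 : x' ∈ ball y r) (h4 : x' ≠ y) :
    ‖f x - f x'‖ ≤ C * ‖x - x'‖ := by
  obtain ⟨v, v0, v1, v2⟩ := exists_orth (x - y) (x' - y)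
  have cv : Convex ℝ (ball y r ∩ {z | inner ℝ v y < inner ℝ v z}) :=
    (convex_ball y r).inter (convex_halfSpace_gt (innerₛₗ ℝ v).isLinear _)
  have tn : ∀ z : X, Tendsto (fun s : ℝ => z + s • v) (𝓝[>] 0) (𝓝 z) := fun z => by
    have : Continuous fun s : ℝ => z + s • v := by fun_prop
    simpa using (this.tendsto 0).mono_left nhdsWithin_le_nhds
  have mem : ∀ z ∈ ball y r, inner ℝ (z - y) v = 0 →
      ∀ᶠ s : ℝ in 𝓝[>] 0, z + s • v ∈ ball y r ∩ {z | inner ℝ v y < inner ℝ v z} := fun z a b => by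
    filter_upwards [tn z (isOpen_ball.mem_nhds a), self_mem_nhdsWithin] with s s1 s2
    refine ⟨s1, ?_⟩
    rw [inner_sub_left, sub_eq_zero, real_inner_comm, real_inner_comm v y] at b
    show inner ℝ v y < inner ℝ v (z + s • v)
    rw [inner_add_right, inner_smul_right, b]
    have : 0 < s * inner ℝ v v := mul_pos s2 (real_inner_self_pos.2 v0)
    linarith
  have t : Tendsto (fun s : ℝ => ‖f (x + s • v) - f (x' + s • v)‖) (𝓝[>] 0) (𝓝 ‖f x - f x'‖) :=
    (((h x h1 h2).1.continuousAt.tendsto.comp (tn x)).sub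
      ((h x' h3 h4).1.continuousAt.tendsto.comp (tn x'))).norm
  refine le_of_tendsto t ?_
  filter_upwards [mem x h1 v1, mem x' h3 v2] with s s1 s2
  have ne : ∀ z ∈ ball y r ∩ {z | inner ℝ v y < inner ℝ v z}, z ≠ y := by
    rintro z ⟨-, k⟩ rfl
    exact lt_irrefl (inner ℝ v z : ℝ) k
  have := cv.norm_image_sub_le_of_norm_hasFDerivWithin_le
    (fun z hz => (h z hz.1 (ne z hz)).1.hasFDerivWithinAt) (fun z hz => (h z hz.1 (ne z hz)).2) s2 s1
  rwa [add_sub_add_right_eq_sub] at this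

theorem ev_ball {y : X} {p : X → Prop} (h : ∀ᶠ x in 𝓝[≠] y, p x) :
    ∃ r > 0, ∀ x ∈ ball y r, x ≠ y → p x := by
  obtain ⟨r, r0, k⟩ := Metric.eventually_nhds_iff_ball.1 (eventually_nhdsWithin_iff.1 h)
  exact ⟨r, r0, fun x a b => k x a b⟩

theorem kr : KR := by
  intro E _ _ _ y J Ξ K hK hΞ hJ
  have c0 : ContinuousOn (fun k => Ξ (y, k)) K := fun k hk =>
    ((hΞ k hk).continuousAt.comp (f := fun k => (y, k)) (by fun_prop)).continuousWithinAt
  obtain ⟨C, hC⟩ := hK.exists_bound_of_continuousOn c0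
  have bd : ∀ᶠ x in 𝓝 y, ∀ k ∈ K, ‖Ξ (x, k)‖ ≤ C + 1 :=
    hK.eventually_forall_of_forall_eventually fun k hk =>
      (hΞ k hk).continuousAt.norm.eventually (eventually_le_nhds (by linarith [hC k hk]))
  obtain ⟨r, r0, hr⟩ := ev_ball (hJ.and (mem_nhdsWithin_of_mem_nhds bd))
  have lp := fun x x' => lip (f := J) (f' := fun x => Ξ (x, J x)) (C := C + 1) (x := x) (x' := x')
    fun x a b => ⟨(hr x a b).1.2, (hr x a b).2 _ (hr x a b).1.1⟩
  have cau : Cauchy (map J (𝓝[≠] y)) := by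
    refine Metric.cauchy_iff.2 ⟨inferInstance, fun ε ε0 => ?_⟩
    have p0 : 0 < |C + 1| + 1 := by positivity
    have δ0 : 0 < min r (ε / (2 * (|C + 1| + 1))) := by positivity
    refine ⟨_, image_mem_map (inter_mem_nhdsWithin {y}ᶜ (ball_mem_nhds y δ0)), ?_⟩
    rintro _ ⟨x, ⟨a1, a2⟩, rfl⟩ _ ⟨x', ⟨b1, b2⟩, rfl⟩
    have k := lp x x' (ball_subset_ball (min_le_left _ _) a2) a1
      (ball_subset_ball (min_le_left _ _) b2) b1
    have d : ‖x - x'‖ < ε / (|C + 1| + 1) := by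
      have a3 := (mem_ball.1 a2).trans_le (min_le_right _ _)
      have b3 := (mem_ball.1 b2).trans_le (min_le_right _ _)
      have := dist_triangle_right x x' y
      rw [← dist_eq_norm, show ε / (|C + 1| + 1) = ε / (2 * (|C + 1| + 1)) + ε / (2 * (|C + 1| + 1))
        by field_simp; ring]
      linarith
    rw [lt_div_iff₀ p0] at d
    rw [dist_eq_norm]
    nlinarith [le_abs_self (C + 1), norm_nonneg (x - x')]
  obtain ⟨L, hL⟩ := CompleteSpace.complete cau
  have LK : L ∈ K := hK.isClosed.mem_of_tendsto hL (hJ.mono fun _ k => k.1)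
  classical
  have e1 : ∀ x ≠ y, Function.update J y L x = J x := fun x k => Function.update_of_ne k _ _
  have e0 : Function.update J y L y = L := Function.update_self _ _ _
  have d0 : HasFDerivAt (Function.update J y L) (Ξ (y, L)) y := by
    rw [hasFDerivAt_iff_isLittleO, Asymptotics.isLittleO_iff]
    intro ε ε0
    have t : Tendsto (fun x => Ξ (x, J x)) (𝓝[≠] y) (𝓝 (Ξ (y, L))) :=
      (hΞ L LK).continuousAt.tendsto.comp
        ((tendsto_id.mono_left nhdsWithin_le_nhds).prodMk_nhds hL)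
    obtain ⟨ρ, ρ0, hρ⟩ := ev_ball (hJ.and (t (closedBall_mem_nhds _ ε0)))
    have lq := fun x x' => lip (f := fun x => J x - Ξ (y, L) x)
      (f' := fun x => Ξ (x, J x) - Ξ (y, L)) (C := ε) (x := x) (x' := x')
      fun x a b => ⟨(hρ x a b).1.2.sub (Ξ (y, L)).hasFDerivAt,
        mem_closedBall_iff_norm.1 (hρ x a b).2⟩
    filter_upwards [ball_mem_nhds y ρ0] with x hx
    by_cases k : x = y
    · simp [k]
    rw [e1 x k, e0]
    have n : Tendsto (fun z : X => z) (𝓝[≠] y) (𝓝 y) := tendsto_id.mono_left nhdsWithin_le_nhds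
    have t1 : Tendsto (fun x' => ‖(J x - Ξ (y, L) x) - (J x' - Ξ (y, L) x')‖) (𝓝[≠] y)
        (𝓝 ‖(J x - Ξ (y, L) x) - (L - Ξ (y, L) y)‖) :=
      (tendsto_const_nhds.sub (Tendsto.sub hL (((Ξ (y, L)).continuous.tendsto y).comp n))).norm
    have t2 : Tendsto (fun x' : X => ε * ‖x - x'‖) (𝓝[≠] y) (𝓝 (ε * ‖x - y‖)) :=
      (tendsto_const_nhds.sub n).norm.const_mul ε
    have := le_of_tendsto_of_tendsto t1 t2 (by
      filter_upwards [inter_mem_nhdsWithin {y}ᶜ (ball_mem_nhds y ρ0)] with x' k'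
      exact lq x x' hx k k'.2 k'.1)
    rwa [show J x - Ξ (y, L) x - (L - Ξ (y, L) y) = J x - L - Ξ (y, L) (x - y) by
      rw [map_sub]; abel] at this
  have d1 : ∀ x ∈ ball y r, HasFDerivAt (Function.update J y L) (Ξ (x, Function.update J y L x)) x := by
    intro x hx
    by_cases k : x = y
    · rw [k, e0]
      exact d0
    rw [e1 x k]
    exact (hr x hx k).1.2.congr_of_eventuallyEq
      ((isOpen_compl_singleton.eventually_mem k).mono fun z a => e1 z a)
  refine ⟨Function.update J y L, contDiffAt_infty.2 fun n => ?_, e0.symm ▸ LK, e1⟩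
  induction n with
  | zero =>
    exact contDiffAt_zero.2 ⟨_, ball_mem_nhds y r0, fun x a => (d1 x a).continuousAt.continuousWithinAt⟩
  | succ n ih =>
    refine contDiffAt_succ_iff_hasFDerivAt.2 ⟨fun x => Ξ (x, Function.update J y L x),
      ⟨_, ball_mem_nhds y r0, d1⟩, ?_⟩
    have := (hΞ L LK).of_le (m := n) (by exact_mod_cast le_top)
    rw [← e0] at this
    exact this.comp y (f := fun x => (x, Function.update J y L x)) (contDiffAt_id.prodMk ih)

end Vale.Agent.P354CB49
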